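import Mathlib

/-!
P200: monomials in a box: slices, lower shadows, lexicographic initial segments and layers.
-/

namespace Vale.Agent.P200.Box

open Finset

variable {n : ℕ}

/-- Exponent vectors bounded by `c` with degree `t - s`. -/
def sl (c : Fin n → ℕ) (s t : ℕ) : Finset (Fin n → ℕ) :=
  (Fintype.piFinset fun i => range (c i + 1)).filter fun x => (∑ i, x i) + s = t

lemma mem_sl {c : Fin n → ℕ} {s t : ℕ} {x : Fin n → ℕ} :
    x ∈ sl c s t ↔ (∀ i, x i ≤ c i) ∧ (∑ i, x i) + s = t := by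
  simp [sl, Fintype.mem_piFinset, Nat.lt_succ_iff]

/-- Raise one exponent. -/
def up (x : Fin n → ℕ) (i : Fin n) : Fin n → ℕ := Function.update x i (x i + 1)

/-- Lower one exponent. -/
def down (x : Fin n → ℕ) (i : Fin n) : Fin n → ℕ := Function.update x i (x i - 1)

lemma up_down {x : Fin n → ℕ} {i : Fin n} (h : 0 < x i) : up (down x i) i = x := by
  funext j
  rcases eq_or_ne j i with rfl | hj
  · simp [up, down]; omega
  · simp [up, down, hj]

lemma down_up (x : Fin n → ℕ) (i : Fin n) : down (up x i) i = x := by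
  funext j
  rcases eq_or_ne j i with rfl | hj <;> simp [up, down, *]

lemma sum_update_add (x : Fin n → ℕ) (i : Fin n) (a : ℕ) :
    (∑ j, Function.update x i a j) + x i = (∑ j, x j) + a := by
  rw [Finset.sum_update_of_mem (mem_univ i), ← Finset.sum_erase_add _ _ (mem_univ i),
    Finset.sdiff_singleton_eq_erase]
  omega

lemma sum_up (x : Fin n → ℕ) (i : Fin n) : (∑ j, up x i j) = (∑ j, x j) + 1 := by
  have := sum_update_add x i (x i + 1)
  unfold up; omega

/-- The lower shadow. -/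
def shadow (T : Finset (Fin n → ℕ)) : Finset (Fin n → ℕ) :=
  T.biUnion fun x => (univ.filter fun i => 0 < x i).image (down x)

lemma mem_shadow {T : Finset (Fin n → ℕ)} {y : Fin n → ℕ} :
    y ∈ shadow T ↔ ∃ i, up y i ∈ T := by
  simp only [shadow, mem_biUnion, mem_image, mem_filter, mem_univ, true_and]
  constructor
  · rintro ⟨x, hx, i, hi, rfl⟩
    exact ⟨i, by rwa [up_down hi]⟩
  · rintro ⟨i, hi⟩
    exact ⟨_, hi, i, by simp [up], down_up y i⟩

lemma shadow_mono {T U : Finset (Fin n → ℕ)} (h : T ⊆ U) : shadow T ⊆ shadow U := by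
  intro y; simp only [mem_shadow]; exact fun ⟨i, hi⟩ => ⟨i, h hi⟩

lemma shadow_subset {c : Fin n → ℕ} {s t : ℕ} {T : Finset (Fin n → ℕ)}
    (hT : T ⊆ sl c s (t + 1)) : shadow T ⊆ sl c s t := by
  intro y hy
  obtain ⟨i, hi⟩ := mem_shadow.1 hy
  obtain ⟨h1, h2⟩ := mem_sl.1 (hT hi)
  refine mem_sl.2 ⟨fun j => le_trans ?_ (h1 j), by rw [sum_up] at h2; omega⟩
  rcases eq_or_ne j i with rfl | hj <;> simp [up, *]

/-- The first index where two vectors differ decides the order. -/
lemma lex_lt_of {x y : Fin n → ℕ} (i : Fin n) (h : ∀ j, j < i → x j = y j) (hi : x i < y i) :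
    toLex x < toLex y := ⟨i, h, hi⟩

lemma lex_lt_dest {x y : Fin n → ℕ} (h : toLex x < toLex y) :
    ∃ i, (∀ j, j < i → x j = y j) ∧ x i < y i := h

/-- An initial segment of `S` in the lexicographic order. -/
def IsSeg (S T : Finset (Fin n → ℕ)) : Prop :=
  T ⊆ S ∧ ∀ u ∈ T, ∀ v ∈ S, toLex v < toLex u → v ∈ T

lemma exists_seg (S : Finset (Fin n → ℕ)) : ∀ k, k ≤ S.card → ∃ T, IsSeg S T ∧ T.card = k := by
  intro k
  induction k with
  | zero => exact fun _ => ⟨∅, ⟨empty_subset _, by simp⟩, card_empty⟩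
  | succ k ih =>
    intro hk
    obtain ⟨T, ⟨hTS, hT⟩, hc⟩ := ih (by omega)
    obtain ⟨v, hv, hmin⟩ := exists_min_image (S \ T) toLex
      (card_pos.1 (by rw [card_sdiff_of_subset hTS]; omega))
    rw [mem_sdiff] at hv
    refine ⟨insert v T, ⟨insert_subset hv.1 hTS, fun u hu w hw hlt => ?_⟩,
      by rw [card_insert_of_notMem hv.2, hc]⟩
    rcases mem_insert.1 hu with rfl | hu
    · exact mem_insert_of_mem (by_contra fun hwT =>
        absurd (hmin w (mem_sdiff.2 ⟨hw, hwT⟩)) (not_le.2 hlt))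
    · exact mem_insert_of_mem (hT u hu w hw hlt)

lemma IsSeg.subset_or {S T U : Finset (Fin n → ℕ)} (hT : IsSeg S T) (hU : IsSeg S U) :
    T ⊆ U ∨ U ⊆ T := by
  by_contra h
  rw [not_or, not_subset, not_subset] at h
  obtain ⟨⟨a, ha, ha'⟩, b, hb, hb'⟩ := h
  rcases lt_trichotomy (toLex a) (toLex b) with h' | h' | h'
  · exact ha' (hU.2 b hb a (hT.1 ha) h')
  · exact ha' (by rw [toLex.injective h']; exact hb)
  · exact hb' (hT.2 a ha b (hU.1 hb) h')

lemma IsSeg.subset_of_card {S T U : Finset (Fin n → ℕ)} (hT : IsSeg S T) (hU : IsSeg S U)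
    (h : T.card ≤ U.card) : T ⊆ U := by
  rcases hT.subset_or hU with h' | h'
  · exact h'
  · rw [eq_of_subset_of_card_le h' h]

/-- The shadow of an initial segment is an initial segment. -/
lemma isSeg_shadow {c : Fin n → ℕ} {s t : ℕ} {T : Finset (Fin n → ℕ)}
    (hT : IsSeg (sl c s (t + 1)) T) : IsSeg (sl c s t) (shadow T) := by
  refine ⟨shadow_subset hT.1, fun y hy z hz hlt => ?_⟩
  obtain ⟨i, hi⟩ := mem_shadow.1 hy
  obtain ⟨p, hpre, hp⟩ := lex_lt_dest hlt
  obtain ⟨hu, hus⟩ := mem_sl.1 (hT.1 hi)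
  obtain ⟨hzc, hzs⟩ := mem_sl.1 hz
  have hyu : ∀ j, y j ≤ up y i j := fun j => by
    rcases eq_or_ne j i with rfl | hj <;> simp [up, *]
  have hmem : ∀ l, z l < c l → up z l ∈ sl c s (t + 1) := fun l hl => mem_sl.2 ⟨fun j => by
    rcases eq_or_ne j l with rfl | hj
    · simp [up]; omega
    · simp [up, hj, hzc j], by rw [sum_up]; omega⟩
  refine mem_shadow.2 ?_
  by_cases hl : ∃ l, p < l ∧ z l < c l
  · obtain ⟨l, hpl, hl⟩ := hl
    refine ⟨l, hT.2 _ hi _ (hmem l hl) ?_⟩
    rcases lt_or_ge i p with hip | hip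
    · refine lex_lt_of i (fun j hj => ?_) ?_
      · simp [up, hj.ne, (hj.trans (hip.trans hpl)).ne, hpre j (hj.trans hip)]
      · simp [up, (hip.trans hpl).ne, hpre i hip]
    · refine lex_lt_of p (fun j hj => ?_) ?_
      · simp [up, (hj.trans hpl).ne, (hj.trans_le hip).ne, hpre j hj]
      · rw [show up z l p = z p by simp [up, hpl.ne]]
        exact hp.trans_le (hyu p)
  · simp only [not_exists, not_and, not_lt] at hl
    have hpc : z p < c p := hp.trans_le ((hyu p).trans (hu p))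
    rcases eq_or_ne (up z p) (up y i) with he | he
    · exact ⟨p, by rw [he]; exact hi⟩
    refine ⟨p, hT.2 _ hi _ (hmem p hpc) ?_⟩
    rcases lt_or_ge i p with hip | hip
    · refine lex_lt_of i (fun j hj => ?_) ?_
      · simp [up, hj.ne, (hj.trans hip).ne, hpre j (hj.trans hip)]
      · simp [up, hip.ne, hpre i hip]
    · by_contra hge
      have hpre' : ∀ j, j < p → up z p j = up y i j := fun j hj => by
        simp [up, hj.ne, (hj.trans_le hip).ne, hpre j hj]
      have hp' : up z p p ≤ up y i p := by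
        have := hyu p
        simp [up] at this ⊢; omega
      rcases hp'.lt_or_eq with h' | h'
      · exact hge (lex_lt_of p hpre' h')
      refine he ?_
      have hle : ∀ j, up y i j ≤ up z p j := fun j => by
        rcases lt_trichotomy j p with hj | rfl | hj
        · rw [hpre' j hj]
        · exact h'.ge
        · rw [show up z p j = z j by simp [up, hj.ne']]; exact (hu j).trans (hl j hj)
      funext j
      refine ((Finset.sum_eq_sum_iff_of_le (s := univ) fun j _ => hle j).1 ?_ j (mem_univ _)).symm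
      rw [sum_up z p]; omega

/-- The layer `x i = k`. -/
def layer (i : Fin (n + 1)) (k : ℕ) (T : Finset (Fin (n + 1) → ℕ)) : Finset (Fin n → ℕ) :=
  (T.filter fun x => x i = k).image i.removeNth

lemma mem_layer {i : Fin (n + 1)} {k : ℕ} {T : Finset (Fin (n + 1) → ℕ)} {z : Fin n → ℕ} :
    z ∈ layer i k T ↔ i.insertNth k z ∈ T := by
  simp only [layer, mem_image, mem_filter]
  constructor
  · rintro ⟨x, ⟨hx, rfl⟩, rfl⟩; rwa [Fin.insertNth_self_removeNth]
  · exact fun h => ⟨_, ⟨h, Fin.insertNth_apply_same _ _ _⟩, Fin.removeNth_insertNth _ _ _⟩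

lemma card_layer (i : Fin (n + 1)) (k : ℕ) (T : Finset (Fin (n + 1) → ℕ)) :
    (layer i k T).card = (T.filter fun x => x i = k).card := by
  refine card_image_of_injOn fun x hx y hy h => ?_
  simp only [coe_filter, Set.mem_ofPred_eq] at hx hy
  rw [← Fin.insertNth_self_removeNth i x, ← Fin.insertNth_self_removeNth i y, h, hx.2, hy.2]

lemma up_insertNth_same (i : Fin (n + 1)) (k : ℕ) (z : Fin n → ℕ) :
    up (i.insertNth k z) i = i.insertNth (k + 1) z := by
  funext j
  refine Fin.succAboveCases i ?_ (fun l => ?_) j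
  · simp [up]
  · simp [up, Fin.succAbove_ne]

lemma up_insertNth_succAbove (i : Fin (n + 1)) (k : ℕ) (z : Fin n → ℕ) (l : Fin n) :
    up (i.insertNth k z) (i.succAbove l) = i.insertNth k (up z l) := by
  funext j
  refine Fin.succAboveCases i ?_ (fun m => ?_) j
  · simp [up, Fin.ne_succAbove]
  · rcases eq_or_ne m l with rfl | h
    · simp [up]
    · simp [up, h, (Fin.succAbove_right_injective).ne h]

lemma layer_shadow (i : Fin (n + 1)) (k : ℕ) (T : Finset (Fin (n + 1) → ℕ)) :
    layer i k (shadow T) = shadow (layer i k T) ∪ layer i (k + 1) T := by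
  ext z
  simp only [mem_union, mem_layer, mem_shadow]
  constructor
  · rintro ⟨j, hj⟩
    revert hj
    refine Fin.succAboveCases i ?_ (fun l => ?_) j
    · intro hj; rw [up_insertNth_same] at hj; exact Or.inr hj
    · intro hj; rw [up_insertNth_succAbove] at hj; exact Or.inl ⟨l, hj⟩
  · rintro (⟨l, hl⟩ | h)
    · exact ⟨i.succAbove l, by rwa [up_insertNth_succAbove]⟩
    · exact ⟨i, by rwa [up_insertNth_same]⟩

lemma sum_insertNth (i : Fin (n + 1)) (k : ℕ) (z : Fin n → ℕ) :
    (∑ j, (i.insertNth k z : Fin (n + 1) → ℕ) j) = k + ∑ j, z j := by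
  rw [Fin.sum_univ_succAbove _ i]; simp

lemma insertNth_mem_sl {c : Fin (n + 1) → ℕ} {i : Fin (n + 1)} {k s t : ℕ} {z : Fin n → ℕ} :
    i.insertNth k z ∈ sl c s t ↔ k ≤ c i ∧ z ∈ sl (i.removeNth c) (s + k) t := by
  simp only [mem_sl, Fin.forall_iff_succAbove i, Fin.insertNth_apply_same,
    Fin.insertNth_apply_succAbove, sum_insertNth, Fin.removeNth_apply]
  constructor
  · rintro ⟨⟨h1, h2⟩, h3⟩; exact ⟨h1, h2, by omega⟩
  · rintro ⟨h1, h2, h3⟩; exact ⟨⟨h1, h2⟩, by omega⟩

/-- The family with prescribed layers. -/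
def build (i : Fin (n + 1)) (K : ℕ) (G : ℕ → Finset (Fin n → ℕ)) : Finset (Fin (n + 1) → ℕ) :=
  (range K).biUnion fun k => (G k).image fun z => i.insertNth k z

lemma mem_build {i : Fin (n + 1)} {K : ℕ} {G : ℕ → Finset (Fin n → ℕ)} {x : Fin (n + 1) → ℕ} :
    x ∈ build i K G ↔ x i < K ∧ i.removeNth x ∈ G (x i) := by
  simp only [build, mem_biUnion, mem_range, mem_image]
  constructor
  · rintro ⟨k, hk, z, hz, rfl⟩; simp [hk, hz]
  · rintro ⟨h1, h2⟩; exact ⟨_, h1, _, h2, Fin.insertNth_self_removeNth i x⟩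

lemma layer_build (i : Fin (n + 1)) (K : ℕ) (G : ℕ → Finset (Fin n → ℕ)) (k : ℕ) :
    layer i k (build i K G) = if k < K then G k else ∅ := by
  ext z
  rw [mem_layer, mem_build, Fin.insertNth_apply_same, Fin.removeNth_insertNth]
  split_ifs with h <;> simp [h]

lemma card_eq_sum_layer {c : Fin (n + 1) → ℕ} {s t : ℕ} (i : Fin (n + 1))
    {T : Finset (Fin (n + 1) → ℕ)} (hT : T ⊆ sl c s t) :
    T.card = ∑ k ∈ range (c i + 1), (layer i k T).card := by
  simp only [card_layer]
  exact card_eq_sum_card_fiberwise fun x hx => mem_range.2 (Nat.lt_succ_of_le ((mem_sl.1 (hT hx)).1 i))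

lemma layer_subset {c : Fin (n + 1) → ℕ} {s t : ℕ} (i : Fin (n + 1)) (k : ℕ)
    {T : Finset (Fin (n + 1) → ℕ)} (hT : T ⊆ sl c s t) :
    layer i k T ⊆ sl (i.removeNth c) (s + k) t :=
  fun _ hz => (insertNth_mem_sl.1 (hT (mem_layer.1 hz))).2

lemma sl_succ_eq (c : Fin n → ℕ) (s t : ℕ) : sl c (s + 1) (t + 1) = sl c s t := by
  ext x; simp only [mem_sl]; refine and_congr_right fun _ => ?_; omega

end Vale.Agent.P200.Box
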