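import Vale.Agent.P200.Box.Basic

/-!
P200: the Clements-Lindström theorem: in a box with increasing side lengths, initial segments
have the smallest lower shadow.
-/

namespace Vale.Agent.P200.Box

open Finset

variable {n : ℕ}

/-- Initial segments minimise the shadow. -/
def CL (n : ℕ) : Prop := ∀ c : Fin n → ℕ, Monotone c → ∀ s t (T S : Finset (Fin n → ℕ)),
  T ⊆ sl c s (t + 1) → IsSeg (sl c s (t + 1)) S → S.card = T.card →
    (shadow S).card ≤ (shadow T).card

/-- Stacking segments: a family with small shadow and prescribed layer sizes. -/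
theorem stack (hCL : CL n) {c : Fin (n + 1) → ℕ} (hc : Monotone c) (i : Fin (n + 1)) (s t : ℕ)
    (g B : ℕ → ℕ)
    (hg : ∀ k ≤ c i, ∃ T, T ⊆ sl (i.removeNth c) (s + k) (t + 1) ∧ T.card = g k ∧
      (shadow T).card ≤ B k)
    (hB : ∀ k < c i, g (k + 1) ≤ B k) :
    ∃ G : ℕ → Finset (Fin n → ℕ),
      (∀ k ≤ c i, IsSeg (sl (i.removeNth c) (s + k) (t + 1)) (G k) ∧ (G k).card = g k) ∧
      build i (c i + 1) G ⊆ sl c s (t + 1) ∧
      (build i (c i + 1) G).card = ∑ k ∈ range (c i + 1), g k ∧
      (shadow (build i (c i + 1) G)).card ≤ ∑ k ∈ range (c i + 1), B k := by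
  have hc' : Monotone (i.removeNth c) := hc.comp (Fin.strictMono_succAbove i).monotone
  have hex : ∀ k, ∃ S, k ≤ c i → IsSeg (sl (i.removeNth c) (s + k) (t + 1)) S ∧ S.card = g k ∧
      (shadow S).card ≤ B k := by
    intro k
    by_cases hk : k ≤ c i
    · obtain ⟨T, hT, hTc, hTs⟩ := hg k hk
      obtain ⟨S, hS, hSc⟩ := exists_seg (sl (i.removeNth c) (s + k) (t + 1)) (g k)
        (hTc ▸ card_le_card hT)
      exact ⟨S, fun _ => ⟨hS, hSc, (hCL _ hc' _ _ T S hT hS (hSc.trans hTc.symm)).trans hTs⟩⟩
    · exact ⟨∅, fun h => absurd h hk⟩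
  choose G hG using hex
  have hsub : build i (c i + 1) G ⊆ sl c s (t + 1) := fun x hx => by
    obtain ⟨h1, h2⟩ := mem_build.1 hx
    rw [← Fin.insertNth_self_removeNth i x]
    exact insertNth_mem_sl.2 ⟨by omega, (hG _ (by omega)).1.1 h2⟩
  refine ⟨G, fun k hk => ⟨(hG k hk).1, (hG k hk).2.1⟩, hsub, ?_, ?_⟩
  · rw [card_eq_sum_layer i hsub]
    refine sum_congr rfl fun k hk => ?_
    rw [layer_build, if_pos (mem_range.1 hk), (hG k (by rw [mem_range] at hk; omega)).2.1]
  · rw [card_eq_sum_layer i (shadow_subset hsub)]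
    refine sum_le_sum fun k hk => ?_
    rw [mem_range] at hk
    obtain ⟨hGs, hGc, hGB⟩ := hG k (by omega)
    rw [layer_shadow, layer_build, if_pos hk, layer_build]
    split_ifs with hk1
    · obtain ⟨hGs', hGc', -⟩ := hG (k + 1) (by omega)
      have h1 := isSeg_shadow hGs
      rw [show s + (k + 1) = s + k + 1 from rfl, sl_succ_eq] at hGs'
      rcases h1.subset_or hGs' with h | h
      · rw [union_eq_right.2 h, hGc']; exact hB k (by omega)
      · rw [union_eq_left.2 h]; exact hGB
    · rw [union_empty]; exact hGB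

/-- Position in the slice. -/
noncomputable def wt (S : Finset (Fin n → ℕ)) (x : Fin n → ℕ) : ℕ := by
  classical exact (S.filter fun y => toLex y < toLex x).card

lemma wt_lt {S : Finset (Fin n → ℕ)} {x y : Fin n → ℕ} (hx : x ∈ S) (h : toLex x < toLex y) :
    wt S x < wt S y := by
  classical
  unfold wt
  refine card_lt_card ⟨fun z hz => ?_, fun hsub => ?_⟩
  · rw [mem_filter] at hz ⊢; exact ⟨hz.1, hz.2.trans h⟩
  · exact lt_irrefl _ (mem_filter.1 (hsub (mem_filter.2 ⟨hx, h⟩))).2

lemma insertNth_lt {i : Fin (n + 1)} {k : ℕ} {z w : Fin n → ℕ} (h : toLex z < toLex w) :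
    toLex (i.insertNth k z : Fin (n + 1) → ℕ) < toLex (i.insertNth k w : Fin (n + 1) → ℕ) := by
  obtain ⟨p, hpre, hp⟩ := lex_lt_dest h
  refine lex_lt_of (i.succAbove p) (fun j hj => ?_) (by simpa using hp)
  revert hj
  refine Fin.succAboveCases i ?_ (fun l => ?_) j
  · simp
  · intro hj; simpa using hpre l ((Fin.strictMono_succAbove i).lt_iff_lt.1 hj)

/-- Exchanging for the least missing element, in at least three variables. -/
theorem exchange {m : ℕ} {c : Fin (m + 3) → ℕ} {s t : ℕ} {T : Finset (Fin (m + 3) → ℕ)}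
    (hT : T ⊆ sl c s (t + 1))
    (hcomp : ∀ a ∈ T, ∀ b ∈ sl c s (t + 1), toLex b < toLex a → (∃ i, b i = a i) → b ∈ T)
    (hns : ¬IsSeg (sl c s (t + 1)) T) :
    ∃ u ∈ T, ∃ v ∈ sl c s (t + 1) \ T, toLex v < toLex u ∧
      (shadow (insert v (T.erase u))).card ≤ (shadow T).card := by
  obtain ⟨u₀, hu₀, v₀, hv₀, hlt₀, hv₀T⟩ : ∃ u ∈ T, ∃ v ∈ sl c s (t + 1),
      toLex v < toLex u ∧ v ∉ T := by
    by_contra h
    exact hns ⟨hT, fun u hu v hv hlt => by_contra fun hvT => h ⟨u, hu, v, hv, hlt, hvT⟩⟩
  obtain ⟨v, hv, hvmin⟩ := exists_min_image (sl c s (t + 1) \ T) toLex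
    ⟨v₀, mem_sdiff.2 ⟨hv₀, hv₀T⟩⟩
  obtain ⟨u, hu, humax⟩ := exists_max_image T toLex ⟨u₀, hu₀⟩
  have hvu : toLex v < toLex u :=
    ((hvmin v₀ (mem_sdiff.2 ⟨hv₀, hv₀T⟩)).trans_lt hlt₀).trans_le (humax u₀ hu₀)
  refine ⟨u, hu, v, hv, hvu, ?_⟩
  rw [mem_sdiff] at hv
  have hne : ∀ i, v i ≠ u i := fun i h => hv.2 (hcomp u hu v hv.1 hvu ⟨i, h⟩)
  have hmid : ∀ w ∈ sl c s (t + 1), toLex v < toLex w → toLex w < toLex u →
      (∃ i, v i = w i) → (∃ i, w i = u i) → False := fun w hw h1 h2 h3 h4 =>
    hv.2 (hcomp w (hcomp u hu w hw h2 h4) v hv.1 h1 h3)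
  obtain ⟨hvc, hvs⟩ := mem_sl.1 hv.1
  obtain ⟨huc, hus⟩ := mem_sl.1 (hT hu)
  set l : Fin (m + 3) := Fin.last (m + 2)
  have h0 : v 0 < u 0 := by
    obtain ⟨p, hpre, hp⟩ := lex_lt_dest hvu
    rcases eq_or_ne p 0 with rfl | hp0
    · exact hp
    · exact absurd (hpre 0 (Fin.pos_of_ne_zero hp0)) (hne 0)
  have h0l : (0 : Fin (m + 3)) ≠ l := by simp [l, Fin.ext_iff]
  -- the last coordinate is larger in `u`
  have hlast : v l < u l := by
    by_contra hge
    have hgt : u l < v l := lt_of_le_of_ne (not_lt.1 hge) (hne l).symm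
    by_cases hi : ∃ i, i ≠ 0 ∧ i ≠ l ∧ v i < u i
    · obtain ⟨i, hi0, hil, hi⟩ := hi
      set d := min (v l - u l) (u i - v i) with hd
      set w := Function.update (Function.update v l (v l - d)) i (v i + d)
      have hw0 : w 0 = v 0 := by simp [w, hi0.symm, h0l]
      have hwi : w i = v i + d := by simp [w]
      have hwl : w l = v l - d := by simp [w, hil.symm]
      have hwo : ∀ j, j ≠ i → j ≠ l → w j = v j := fun j h1 h2 => by simp [w, h1, h2]
      have := sum_update_add v l (v l - d)
      have hs' := sum_update_add (Function.update v l (v l - d)) i (v i + d)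
      rw [Function.update_of_ne hil] at hs'
      refine hmid w (mem_sl.2 ⟨fun j => ?_, ?_⟩) ?_ ?_ ⟨0, hw0.symm⟩ ?_
      · rcases eq_or_ne j i with rfl | hji
        · rw [hwi]; have := huc j; omega
        rcases eq_or_ne j l with rfl | hjl
        · rw [hwl]; have := hvc l; omega
        · rw [hwo j hji hjl]; exact hvc j
      · change (∑ j, Function.update (Function.update v l (v l - d)) i (v i + d) j) + s = t + 1
        omega
      · refine lex_lt_of i (fun j hj => ?_) (by rw [hwi]; omega)
        exact (hwo j hj.ne (hj.trans_le (Fin.le_last i)).ne).symm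
      · exact lex_lt_of 0 (fun j hj => absurd hj (Fin.not_lt_zero j)) (by omega)
      · rcases le_total (v l - u l) (u i - v i) with h | h
        · exact ⟨l, by rw [hwl]; omega⟩
        · exact ⟨i, by rw [hwi]; omega⟩
    · simp only [not_exists, not_and, not_lt] at hi
      set d := v l - u l with hd
      set w := Function.update (Function.update v l (u l)) 0 (v 0 + d)
      have hw0 : w 0 = v 0 + d := by simp [w]
      have hwl : w l = u l := by simp [w, h0l.symm]
      let i : Fin (m + 3) := ⟨1, by omega⟩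
      have hi0 : i ≠ 0 := by simp [i, Fin.ext_iff]
      have hil : i ≠ l := by simp [i, l, Fin.ext_iff]
      have hwi : w i = v i := by simp [w, hi0, hil]
      have hlti : u i < v i := lt_of_le_of_ne (hi i hi0 hil) (hne i).symm
      have hd0 : v 0 + d < u 0 := by
        have hsum : ∑ j, (Function.update (Function.update u 0 0) l 0) j <
            ∑ j, (Function.update (Function.update v 0 0) l 0) j :=
          sum_lt_sum (fun j _ => by
            rcases eq_or_ne j l with rfl | h1
            · simp
            rcases eq_or_ne j 0 with rfl | h2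
            · simp [h1]
            · simpa [h1, h2] using hi j h2 h1) ⟨i, mem_univ _, by simpa [hi0, hil] using hlti⟩
        have e1 := sum_update_add u 0 0
        have e2 := sum_update_add (Function.update u 0 0) l 0
        have e3 := sum_update_add v 0 0
        have e4 := sum_update_add (Function.update v 0 0) l 0
        rw [Function.update_of_ne h0l.symm] at e2 e4
        omega
      have := sum_update_add v l (u l)
      have hs' := sum_update_add (Function.update v l (u l)) 0 (v 0 + d)
      rw [Function.update_of_ne h0l] at hs'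
      refine hmid w (mem_sl.2 ⟨fun j => ?_, ?_⟩) ?_ ?_ ⟨i, hwi.symm⟩ ⟨l, hwl⟩
      · rcases eq_or_ne j 0 with rfl | hj0
        · rw [hw0]; have := huc 0; omega
        rcases eq_or_ne j l with rfl | hjl
        · rw [hwl]; exact huc l
        · simp [w, hj0, hjl, hvc j]
      · change (∑ j, Function.update (Function.update v l (u l)) 0 (v 0 + d) j) + s = t + 1
        omega
      · exact lex_lt_of 0 (fun j hj => absurd hj (Fin.not_lt_zero j)) (by omega)
      · exact lex_lt_of 0 (fun j hj => absurd hj (Fin.not_lt_zero j)) (by omega)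
  -- compare the shadows
  have hsub : shadow (insert v (T.erase u)) ⊆ insert (down v l) (shadow (T.erase u)) := by
    intro y hy
    obtain ⟨i, hi⟩ := mem_shadow.1 hy
    rcases mem_insert.1 hi with hi | hi
    · rcases eq_or_ne i l with rfl | hil
      · exact mem_insert.2 (Or.inl (by rw [← hi, down_up]))
      refine mem_insert_of_mem (mem_shadow.2 ⟨l, ?_⟩)
      have hyl : y l = v l := by rw [← hi]; simp [up, hil.symm]
      have hlt : toLex (up y l) < toLex v := by
        refine lex_lt_of i (fun j hj => ?_) ?_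
        · rw [← hi]; simp [up, hj.ne, (show j ≠ l from (hj.trans_le (Fin.le_last i)).ne)]
        · rw [← hi]; simp [up, hil]
      have hmem : up y l ∈ sl c s (t + 1) := by
        refine mem_sl.2 ⟨fun j => ?_, ?_⟩
        · rcases eq_or_ne j l with rfl | hjl
          · have := huc l; simp [up]; omega
          · refine le_trans ?_ (hvc j)
            rw [← hi]
            rcases eq_or_ne j i with rfl | hji <;> simp [up, hjl, *]
        · rw [← hi, sum_up] at hvs; rw [sum_up]; omega
      exact mem_erase.2 ⟨fun h => absurd (h ▸ hlt.trans hvu) (lt_irrefl _),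
        by_contra fun h => absurd (hvmin _ (mem_sdiff.2 ⟨hmem, h⟩)) (not_le.2 hlt)⟩
    · exact mem_insert_of_mem (mem_shadow.2 ⟨i, hi⟩)
  have hlost : down u l ∈ shadow T \ shadow (T.erase u) := by
    have hpos : 0 < u l := by omega
    refine mem_sdiff.2 ⟨mem_shadow.2 ⟨l, by rw [up_down hpos]; exact hu⟩, fun h => ?_⟩
    obtain ⟨i, hi⟩ := mem_shadow.1 h
    rw [mem_erase] at hi
    rcases eq_or_ne i l with rfl | hil
    · exact hi.1 (up_down hpos)
    refine absurd (humax _ hi.2) (not_le.2 ?_)
    refine lex_lt_of i (fun j hj => ?_) ?_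
    · simp [up, down, hj.ne, (show j ≠ l from (hj.trans_le (Fin.le_last i)).ne)]
    · simp [up, down, hil]
  have h1 := card_lt_card (s := shadow (T.erase u)) (t := shadow T)
    ⟨shadow_mono (erase_subset u T), fun h => (mem_sdiff.1 hlost).2 (h (mem_sdiff.1 hlost).1)⟩
  have h2 := (card_le_card hsub).trans (card_insert_le _ _)
  omega

/-- The two-variable case. -/
theorem cl_two (c : Fin 2 → ℕ) (hc : Monotone c) (s t : ℕ) (T S : Finset (Fin 2 → ℕ))
    (hT : T ⊆ sl c s (t + 1)) (hS : IsSeg (sl c s (t + 1)) S) (hcard : S.card = T.card) :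
    (shadow S).card ≤ (shadow T).card := by
  rcases T.eq_empty_or_nonempty with rfl | hne
  · rw [card_empty, card_eq_zero] at hcard; simp [hcard]
  by_cases hfull : sl c s (t + 1) ⊆ T
  · rw [eq_of_subset_of_card_le (hS.1.trans hfull) hcard.ge]
  obtain ⟨p, hp, hpT⟩ := not_subset.1 hfull
  obtain ⟨hpc, hps⟩ := mem_sl.1 hp
  have hpt : ∀ {x : Fin 2 → ℕ} {s t : ℕ}, x ∈ sl c s t → x 0 ≤ c 0 ∧ x 1 ≤ c 1 ∧ x 0 + x 1 + s = t := by
    intro x s t h
    obtain ⟨h1, h2⟩ := mem_sl.1 h
    rw [Fin.sum_univ_two] at h2
    exact ⟨h1 0, h1 1, h2⟩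
  have hinj : ∀ {s t : ℕ} {x y : Fin 2 → ℕ}, x ∈ sl c s t → y ∈ sl c s t → x 0 = y 0 → x = y := by
    intro s t x y hx hy h
    funext j
    have := hpt hx; have := hpt hy
    fin_cases j <;> simp only [Fin.zero_eta, Fin.mk_one] <;> omega
  have hc01 : c 0 ≤ c 1 := hc (Fin.zero_le 1)
  have hps' := hpt hp
  -- the shadow of a segment
  have hSle : (shadow S).card ≤ S.card + if t + 1 ≤ c 1 + s then 0 else 1 := by
    set lo := t + 1 - s - c 1 with hlo
    have hbound : ∀ x ∈ S, x 0 < lo + S.card := by
      intro x hx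
      have hxs := hpt (hS.1 hx)
      have hsub : (Icc lo (x 0)).card ≤ S.card := by
        refine card_le_card_of_injOn (fun a => ![a, t + 1 - s - a]) (fun a ha => ?_) ?_
        · simp only [coe_Icc, Set.mem_Icc] at ha
          rcases ha.2.eq_or_lt with rfl | hlt
          · rw [mem_coe]; convert hx using 1
            funext j; fin_cases j <;> simp; omega
          · refine hS.2 x hx _ (mem_sl.2 ⟨fun j => ?_, ?_⟩) ?_
            · fin_cases j <;> simp <;> omega
            · simp [Fin.sum_univ_two]; omega
            · exact lex_lt_of 0 (fun j hj => absurd hj (Fin.not_lt_zero j)) (by simpa using hlt)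
        · intro a _ b _ h; simpa using congrFun h 0
      rw [Nat.card_Icc] at hsub
      omega
    refine (card_le_card_of_injOn (t := Ico (t - s - c 1) (lo + S.card)) (fun y => y 0)
      (fun y hy => ?_) fun y hy z hz h => hinj (shadow_subset hS.1 hy) (shadow_subset hS.1 hz) h).trans ?_
    · have h1 := hpt (shadow_subset hS.1 hy)
      obtain ⟨i, hi⟩ := mem_shadow.1 hy
      have h2 := hbound _ hi
      have : y 0 ≤ up y i 0 := by fin_cases i <;> simp [up]
      simp only [coe_Ico, Set.mem_Ico]; omega
    · rw [Nat.card_Ico]; split_ifs <;> omega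
  -- the shadow of an arbitrary family
  let f : (Fin 2 → ℕ) → Fin 2 → ℕ := fun x => if x 0 < p 0 then down x 1 else down x 0
  have hx0 : ∀ x ∈ T, x 0 ≠ p 0 := fun x hx h => hpT (hinj (hT hx) hp h ▸ hx)
  have hf : ∀ x ∈ T, f x ∈ shadow T := fun x hx => by
    have := hpt (hT hx); have := hx0 x hx
    simp only [f]
    split_ifs
    · exact mem_shadow.2 ⟨1, by rw [up_down (by omega)]; exact hx⟩
    · exact mem_shadow.2 ⟨0, by rw [up_down (by omega)]; exact hx⟩
  have hfinj : Set.InjOn f T := fun x hx y hy h => by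
    have := hx0 x hx; have := hx0 y hy
    have h' := congrFun h 0
    refine hinj (hT hx) (hT hy) ?_
    simp only [f] at h'
    split_ifs at h' <;> simp [down] at h' <;> omega
  have h1 : T.card ≤ (shadow T).card := card_le_card_of_injOn f hf hfinj
  split_ifs at hSle with hsmall
  · omega
  · obtain ⟨x, hx, hmin⟩ := exists_min_image T (fun x => x 0) hne
    have hxs := hpt (hT hx)
    have hd : ∀ y ∈ T, down y 1 ∈ shadow T := fun y hy => mem_shadow.2 ⟨1, by
      rw [up_down (by have := hpt (hT hy); omega)]; exact hy⟩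
    have hsub : insert (down x 0) (T.image (down · 1)) ⊆ shadow T :=
      insert_subset (mem_shadow.2 ⟨0, by rw [up_down (by omega)]; exact hx⟩)
        (image_subset_iff.2 hd)
    have hnot : down x 0 ∉ T.image (down · 1) := fun h => by
      obtain ⟨y, hy, he⟩ := mem_image.1 h
      have := congrFun he 0
      have := hmin y hy
      simp [down] at *
      omega
    have h2 := card_le_card hsub
    rw [card_insert_of_notMem hnot, card_image_of_injOn fun a ha b hb h => hinj (hT ha) (hT hb)
      (by simpa [down] using congrFun h 0)] at h2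
    omega

/-- The Clements-Lindström theorem. -/
theorem clements_lindstrom : ∀ n, CL n
  | 0, c, _, s, t, T, S, hT, hS, hcard => by
    rw [show S = T from ?_]
    rcases T.eq_empty_or_nonempty with rfl | ⟨x, hx⟩
    · exact card_eq_zero.1 hcard
    · refine eq_of_subset_of_card_le (fun y _ => ?_) hcard.ge
      rwa [Subsingleton.elim y x]
  | 1, c, _, s, t, T, S, hT, hS, hcard => by
    rw [show S = T from ?_]
    rcases T.eq_empty_or_nonempty with rfl | ⟨x, hx⟩
    · exact card_eq_zero.1 hcard
    · refine eq_of_subset_of_card_le (fun y hy => ?_) hcard.ge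
      have h1 := (mem_sl.1 (hT hx)).2
      have h2 := (mem_sl.1 (hS.1 hy)).2
      simp only [Fin.sum_univ_one] at h1 h2
      rwa [show y = x from funext fun j => by fin_cases j; simp only [Fin.zero_eta]; omega]
  | 2, c, hc, s, t, T, S, hT, hS, hcard => cl_two c hc s t T S hT hS hcard
  | m + 3, c, hc, s, t, T, S, hT, hS, hcard => by
    have ih : CL (m + 2) := clements_lindstrom (m + 2)
    induction hw : ∑ x ∈ T, wt (sl c s (t + 1)) x using Nat.strong_induction_on generalizing T with
    | _ w IH =>
      subst hw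
      by_cases hseg : IsSeg (sl c s (t + 1)) T
      · rw [eq_of_subset_of_card_le (hS.subset_of_card hseg hcard.le) hcard.ge]
      by_cases hcomp : ∀ i : Fin (m + 3), ∀ k ≤ c i,
          IsSeg (sl (i.removeNth c) (s + k) (t + 1)) (layer i k T)
      · obtain ⟨u, hu, v, hv, hvu, hle⟩ := exchange hT (fun a ha b hb hlt ⟨i, hi⟩ => by
          have hb' := hb
          rw [← Fin.insertNth_self_removeNth i b, ← mem_layer]
          rw [← Fin.insertNth_self_removeNth i b, insertNth_mem_sl] at hb'
          refine (hcomp i (b i) hb'.1).2 (i.removeNth a)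
            (mem_layer.2 (by rw [hi, Fin.insertNth_self_removeNth]; exact ha)) _ hb'.2 ?_
          obtain ⟨p, hpre, hp⟩ := lex_lt_dest hlt
          obtain ⟨q, rfl⟩ := Fin.exists_succAbove_eq (show p ≠ i by rintro rfl; omega)
          refine lex_lt_of q (fun j hj => ?_) (by simpa [Fin.removeNth_apply] using hp)
          simpa [Fin.removeNth_apply] using hpre _ (Fin.strictMono_succAbove i hj)) hseg
        rw [mem_sdiff] at hv
        have hvn : v ∉ T.erase u := fun h => hv.2 (mem_of_mem_erase h)
        refine (IH _ ?_ (insert v (T.erase u)) (insert_subset hv.1 ((erase_subset _ _).trans hT))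
          (by rw [hcard, card_insert_of_notMem hvn, card_erase_add_one hu]) rfl).trans hle
        rw [sum_insert hvn, ← add_sum_erase T _ hu]
        exact Nat.add_lt_add_right (wt_lt hv.1 hvu) _
      · simp only [not_forall] at hcomp
        obtain ⟨i, k₀, hk₀, hnseg⟩ := hcomp
        obtain ⟨G, hG, hsub, hGc, hGs⟩ := stack ih hc i s t (fun k => (layer i k T).card)
          (fun k => (layer i k (shadow T)).card)
          (fun k _ => ⟨_, layer_subset i k hT, rfl, by
            rw [layer_shadow]; exact card_le_card subset_union_left⟩)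
          (fun k _ => by rw [layer_shadow]; exact card_le_card subset_union_right)
        rw [← card_eq_sum_layer i hT] at hGc
        rw [← card_eq_sum_layer i (shadow_subset hT)] at hGs
        refine (IH _ ?_ _ hsub (hcard.trans hGc.symm) rfl).trans hGs
        -- the weight drops
        have hsplit : ∀ U : Finset (Fin (m + 3) → ℕ), U ⊆ sl c s (t + 1) →
            ∑ x ∈ U, wt (sl c s (t + 1)) x = ∑ k ∈ range (c i + 1),
              ∑ z ∈ layer i k U, wt (sl c s (t + 1)) (i.insertNth k z) := by
          intro U hU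
          rw [← sum_fiberwise_of_maps_to (g := fun x => x i) fun x hx =>
            mem_range.2 (Nat.lt_succ_of_le ((mem_sl.1 (hU hx)).1 i))]
          refine sum_congr rfl fun k _ => sum_bij' (fun x _ => i.removeNth x)
            (fun z _ => i.insertNth k z) ?_ ?_ ?_ ?_ ?_
          · intro x hx; rw [mem_filter] at hx
            rw [mem_layer, ← hx.2, Fin.insertNth_self_removeNth]; exact hx.1
          · intro z hz; rw [mem_filter]; exact ⟨mem_layer.1 hz, Fin.insertNth_apply_same _ _ _⟩
          · intro x hx; rw [← (mem_filter.1 hx).2, Fin.insertNth_self_removeNth]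
          · intro z _; simp
          · intro x hx; rw [← (mem_filter.1 hx).2, Fin.insertNth_self_removeNth]
        rw [hsplit _ hsub, hsplit _ hT]
        have hstrict : ∀ k ≤ c i, layer i k T ≠ G k →
            ∑ z ∈ G k, wt (sl c s (t + 1)) (i.insertNth k z) <
              ∑ z ∈ layer i k T, wt (sl c s (t + 1)) (i.insertNth k z) := by
          intro k hk hne
          obtain ⟨hGseg, hGk⟩ := hG k hk
          set A := layer i k T
          rw [← sum_inter_add_sum_sdiff (G k) A, ← sum_inter_add_sum_sdiff A (G k), inter_comm A]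
          refine Nat.add_lt_add_left ?_ _
          have hne' : (A \ G k).Nonempty := by
            rw [sdiff_nonempty]
            exact fun h => hne (eq_of_subset_of_card_le h hGk.le)
          have hne'' : (G k \ A).Nonempty := by
            rw [← card_pos, ← card_sdiff_comm hGk.symm]
            exact card_pos.2 hne'
          have hcd : (G k \ A).card = (A \ G k).card := (card_sdiff_comm hGk.symm).symm
          obtain ⟨b, hb, hbmin⟩ := exists_min_image (A \ G k)
            (fun z => wt (sl c s (t + 1)) (i.insertNth k z)) hne'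
          refine lt_of_lt_of_le (lt_of_lt_of_eq (sum_lt_sum_of_nonempty hne'' fun z hz => ?_) (sum_const _))
            (hcd ▸ card_nsmul_le_sum _ _ _ hbmin)
          rw [mem_sdiff] at hb hz
          refine wt_lt (insertNth_mem_sl.2 ⟨hk, hGseg.1 hz.1⟩) (insertNth_lt ?_)
          rcases lt_trichotomy (toLex z) (toLex b) with h | h | h
          · exact h
          · exact absurd (toLex.injective h ▸ hb.1) hz.2
          · exact absurd (hGseg.2 z hz.1 b (layer_subset i k hT hb.1) h) hb.2
        refine sum_lt_sum (fun k hk => ?_) ⟨k₀, mem_range.2 (by omega), ?_⟩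
        · rw [layer_build, if_pos (mem_range.1 hk)]
          rcases eq_or_ne (layer i k T) (G k) with h | h
          · rw [h]
          · exact (hstrict k (Nat.lt_succ_iff.1 (mem_range.1 hk)) h).le
        · rw [layer_build, if_pos (by omega : k₀ < c i + 1)]
          exact hstrict k₀ hk₀ fun h => hnseg (h ▸ (hG k₀ hk₀).1)

end Vale.Agent.P200.Box
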