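import Vale.Agent.P200.Box.CL

/-!
P200: numerical sequences that are Hilbert functions of order ideals of monomials in a box.
-/

namespace Vale.Agent.P200.Box

open Finset

variable {n : ℕ}

/-- `h` grows no faster than the Clements-Lindström bound of the box `c`. -/
def Good (c : Fin n → ℕ) (h : ℕ → ℕ) : Prop :=
  h 0 ≤ 1 ∧ ∀ d, ∃ T, T ⊆ sl c 0 (d + 1) ∧ T.card = h (d + 1) ∧ (shadow T).card ≤ h d

/-- A good sequence is the Hilbert function of an order ideal of monomials in the box. -/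
theorem Good.complex {c : Fin n → ℕ} (hc : Monotone c) {h : ℕ → ℕ} (hg : Good c h) :
    ∃ F : Finset (Fin n → ℕ), (∀ x ∈ F, ∀ i, x i ≤ c i) ∧ (∀ x ∈ F, ∀ y ≤ x, y ∈ F) ∧
      ∀ d, (F.filter fun x => ∑ i, x i = d).card = h d := by
  classical
  have hle : ∀ d, h d ≤ (sl c 0 d).card := by
    intro d
    cases d with
    | zero => exact hg.1.trans (card_pos.2 ⟨0, mem_sl.2 ⟨fun i => Nat.zero_le _, by simp⟩⟩)
    | succ d =>
      obtain ⟨T, hT, hTc, -⟩ := hg.2 d
      exact hTc ▸ card_le_card hT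
  choose G hG hGc using fun d => exists_seg (sl c 0 d) (h d) (hle d)
  have hsh : ∀ d, shadow (G (d + 1)) ⊆ G d := by
    intro d
    obtain ⟨T, hT, hTc, hTs⟩ := hg.2 d
    refine (isSeg_shadow (hG (d + 1))).subset_of_card (hG d) ?_
    rw [hGc d]
    exact (clements_lindstrom n c hc 0 d T _ hT (hG (d + 1)) ((hGc _).trans hTc.symm)).trans hTs
  have hsum : ∀ d, ∀ x ∈ G d, ∑ i, x i = d := fun d x hx => by
    have := (mem_sl.1 ((hG d).1 hx)).2; omega
  set F : Finset (Fin n → ℕ) :=
    (Fintype.piFinset fun i => range (c i + 1)).filter fun x => x ∈ G (∑ i, x i) with hF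
  have hmem : ∀ x, x ∈ F ↔ x ∈ G (∑ i, x i) := fun x => by
    simp only [hF, mem_filter, Fintype.mem_piFinset, mem_range, and_iff_right_iff_imp]
    exact fun hx i => Nat.lt_succ_of_le ((mem_sl.1 ((hG _).1 hx)).1 i)
  have hdown : ∀ r, ∀ x ∈ F, ∀ y ≤ x, (∑ i, x i) = (∑ i, y i) + r → y ∈ F := by
    intro r
    induction r with
    | zero =>
      intro x hx y hy he
      rwa [show y = x from funext fun i =>
        (sum_eq_sum_iff_of_le (s := univ) fun i _ => hy i).1 (by omega) i (mem_univ i)]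
    | succ r ih =>
      intro x hx y hy he
      obtain ⟨i, hi⟩ : ∃ i, y i < x i := by
        by_contra h
        simp only [not_exists, not_lt] at h
        have := sum_le_sum (s := univ) fun i _ => h i
        omega
      have hpos : 0 < x i := by omega
      have hs := sum_up (down x i) i
      rw [up_down hpos] at hs
      refine ih (down x i) ((hmem _).2 (hsh _ (mem_shadow.2 ⟨i, ?_⟩))) y (fun j => ?_) (by omega)
      · rw [up_down hpos, ← hs]; exact (hmem x).1 hx
      · rcases eq_or_ne j i with rfl | hj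
        · simp [down]; omega
        · simp [down, hj, hy j]
  refine ⟨F, fun x hx i => (mem_sl.1 ((hG _).1 ((hmem x).1 hx))).1 i, fun x hx y hy => ?_,
    fun d => ?_⟩
  · exact hdown ((∑ i, x i) - ∑ i, y i) x hx y hy
      (by have := sum_le_sum (s := univ) fun i _ => hy i; omega)
  · rw [← hGc d]
    congr 1
    ext x
    rw [mem_filter, hmem]
    exact ⟨fun h => h.2 ▸ h.1, fun h => ⟨by rw [hsum d x h]; exact h, hsum d x h⟩⟩

lemma shadow_sl_self {c : Fin n → ℕ} {s : ℕ} {T : Finset (Fin n → ℕ)} (hT : T ⊆ sl c s s) :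
    shadow T = ∅ := by
  refine eq_empty_of_forall_notMem fun y hy => ?_
  obtain ⟨i, hi⟩ := mem_shadow.1 hy
  have := (mem_sl.1 (hT hi)).2
  rw [sum_up] at this
  omega

/-- Gluing along a new coordinate of any side length. -/
theorem good_glue {c : Fin (n + 1) → ℕ} (hc : Monotone c) (i : Fin (n + 1)) {h : ℕ → ℕ}
    (h0 : h 0 ≤ 1)
    (hstep : ∀ d, ∃ g B : ℕ → ℕ,
      (∀ k ≤ c i, ∃ T, T ⊆ sl (i.removeNth c) k (d + 1) ∧ T.card = g k ∧ (shadow T).card ≤ B k) ∧
      (∀ k < c i, g (k + 1) ≤ B k) ∧ h (d + 1) = ∑ k ∈ range (c i + 1), g k ∧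
      ∑ k ∈ range (c i + 1), B k ≤ h d) :
    Good c h := by
  refine ⟨h0, fun d => ?_⟩
  obtain ⟨g, B, hg, hB, he, hd⟩ := hstep d
  obtain ⟨G, -, h1, h2, h3⟩ := stack (clements_lindstrom n) hc i 0 d g B
    (fun k hk => by simpa only [Nat.zero_add] using hg k hk) hB
  exact ⟨_, h1, h2.trans he.symm, h3.trans hd⟩

end Vale.Agent.P200.Box
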